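import Vale.Agent.P025.R2.H941.OM3
import Vale.Agent.P025.R2.H219.HT1
import Vale.Agent.P025.R2.H219.HT2

/-!
# P025 G-HT (6.1): existence of the Hodge-Tate forms, from the trace formula (helper219)
-/

open Polynomial

universe u v

namespace P025H219

open P025H373 P025H587 P025H941 Vale.Agent.P019P

set_option linter.unusedSectionVars false

section

variable {C : Type u} [NontriviallyNormedField C] [IsUltrametricDist C] [CompleteSpace C]

/-- norms of `C(t)` over the norm of `C` -/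
def NmR (w : AbsoluteValue (RatFunc C) ℝ) : Prop :=
  IsNonarchimedean w ∧ ∀ c : C, w (RatFunc.C c) = ‖c‖

theorem nmR_gauss : NmR (gauss C) :=
  ⟨gauss_na, fun c => by rw [← RatFunc.algebraMap_C, gauss_poly, gp_C]⟩

/-- `y m` is, up to `O(q^m)` for every norm, a polynomial of bounded degree -/
def PolyForm (q : ℝ) (y : ℕ → RatFunc C) : Prop :=
  ∃ (d : ℕ) (P : ℕ → C[X]), (∀ m, (P m).natDegree ≤ d) ∧
    ∀ w : AbsoluteValue (RatFunc C) ℝ, NmR w → ∃ A : ℝ, 0 ≤ A ∧
      ∀ m, w (y m - algebraMap C[X] (RatFunc C) (P m)) ≤ A * q ^ m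

/-- `y m` tends to a polynomial, with speed `O(q^m)` for every norm -/
def PolyLim (q : ℝ) (y : ℕ → RatFunc C) : Prop :=
  ∃ L : C[X], ∀ w : AbsoluteValue (RatFunc C) ℝ, NmR w → ∃ A : ℝ, 0 ≤ A ∧
    ∀ m, w (y m - algebraMap C[X] (RatFunc C) L) ≤ A * q ^ m

theorem w_sum_le {ι : Type*} {K : Type*} [Field K] (w : AbsoluteValue K ℝ) (s : Finset ι)
    (g : ι → K) : w (∑ i ∈ s, g i) ≤ ∑ i ∈ s, w (g i) := w.sum_le s g

/-- a polynomial of degree `≤ d` is bounded by its coefficients. -/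
theorem w_poly_le {w : AbsoluteValue (RatFunc C) ℝ} (hw : NmR w) {d : ℕ} {P : C[X]}
    (hd : P.natDegree ≤ d) {B : ℝ} (hB : ∀ i, ‖P.coeff i‖ ≤ B) :
    w (algebraMap C[X] (RatFunc C) P) ≤ B * ∑ i ∈ Finset.range (d + 1), w RatFunc.X ^ i := by
  rw [P.as_sum_range' (d + 1) (Nat.lt_succ_of_le hd), map_sum, Finset.mul_sum]
  refine (w.sum_le _ _).trans (Finset.sum_le_sum fun i _ => ?_)
  rw [← Polynomial.C_mul_X_pow_eq_monomial, map_mul, map_pow, RatFunc.algebraMap_C,
    RatFunc.algebraMap_X, map_mul, map_pow, hw.2]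
  exact mul_le_mul_of_nonneg_right (hB i) (pow_nonneg (w.nonneg _) _)

/-- **The limit.** -/
theorem PolyForm.lim {q : ℝ} (hq0 : 0 ≤ q) (hq1 : q < 1) {y : ℕ → RatFunc C} (h : PolyForm q y)
    {A : ℝ} (hA : ∀ m, gauss C (y (m + 1) - y m) ≤ A * q ^ m) : PolyLim q y := by
  obtain ⟨d, P, hd, hP⟩ := h
  obtain ⟨A1, hA10, hA1⟩ := hP (gauss C) nmR_gauss
  set A2 : ℝ := max A 0 + 2 * A1 with hA2
  have hA20 : 0 ≤ A2 := by positivity
  -- the coefficients are Cauchy
  have h1 : ∀ m, gp (P (m + 1) - P m) ≤ A2 * q ^ m := by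
    intro m
    have hqm : 0 ≤ q ^ m := pow_nonneg hq0 m
    rw [← gauss_poly, map_sub]
    have e : algebraMap C[X] (RatFunc C) (P (m + 1)) - algebraMap C[X] (RatFunc C) (P m) =
        -(y (m + 1) - algebraMap C[X] (RatFunc C) (P (m + 1))) +
          ((y (m + 1) - y m) + (y m - algebraMap C[X] (RatFunc C) (P m))) := by ring
    rw [e]
    have h2 := hA1 (m + 1)
    have h3 := hA1 m
    have h4 := hA m
    have h5 : A * q ^ m ≤ max A 0 * q ^ m := mul_le_mul_of_nonneg_right (le_max_left _ _) hqm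
    have h6 : A1 * q ^ (m + 1) ≤ A1 * q ^ m := by
      rw [pow_succ, ← mul_assoc]
      exact mul_le_of_le_one_right (mul_nonneg hA10 hqm) hq1.le
    refine ((gauss C).add_le _ _).trans ?_
    rw [(gauss C).map_neg]
    have h7 := (gauss C).add_le (y (m + 1) - y m) (y m - algebraMap C[X] (RatFunc C) (P m))
    rw [hA2, add_mul, mul_assoc]
    linarith
  have h2 : ∀ i m, dist ((P m).coeff i) ((P (m + 1)).coeff i) ≤ A2 * q ^ m := by
    intro i m
    rw [dist_comm, dist_eq_norm, ← Polynomial.coeff_sub]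
    exact (norm_coeff_le _ i).trans (h1 m)
  have h3 : ∀ i, ∃ l : C, Filter.Tendsto (fun m => (P m).coeff i) Filter.atTop (nhds l) := fun i =>
    cauchySeq_tendsto_of_complete (cauchySeq_of_le_geometric q A2 hq1 (h2 i))
  choose l hl using h3
  have h4 : ∀ i m, dist ((P m).coeff i) (l i) ≤ A2 * q ^ m / (1 - q) := fun i m =>
    dist_le_of_le_geometric_of_tendsto q A2 hq1 (h2 i) (hl i) m
  have hl0 : ∀ i, d < i → l i = 0 := by
    intro i hi
    have h5 : (fun m => (P m).coeff i) = fun _ => (0 : C) := by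
      funext m
      exact Polynomial.coeff_eq_zero_of_natDegree_lt ((hd m).trans_lt hi)
    have h6 := hl i
    rw [h5] at h6
    exact tendsto_nhds_unique h6 tendsto_const_nhds
  set L : C[X] := ∑ i ∈ Finset.range (d + 1), Polynomial.monomial i (l i) with hL
  have hLc : ∀ i, L.coeff i = l i := by
    intro i
    rw [hL, Polynomial.finsetSum_coeff]
    simp only [Polynomial.coeff_monomial]
    rw [Finset.sum_ite_eq']
    split_ifs with h5
    · rfl
    · rw [hl0 i]
      rw [Finset.mem_range] at h5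
      omega
  have hLd : L.natDegree ≤ d := by
    rw [Polynomial.natDegree_le_iff_coeff_eq_zero]
    intro i hi
    rw [hLc, hl0 i hi]
  refine ⟨L, fun w hw => ?_⟩
  obtain ⟨A3, hA30, hA3⟩ := hP w hw
  set T : ℝ := ∑ i ∈ Finset.range (d + 1), w RatFunc.X ^ i with hT
  have hT0 : 0 ≤ T := Finset.sum_nonneg fun i _ => pow_nonneg (w.nonneg _) _
  have hq2 : 0 < 1 - q := by linarith
  refine ⟨A3 + A2 / (1 - q) * T, by positivity, fun m => ?_⟩
  have e : y m - algebraMap C[X] (RatFunc C) L =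
      (y m - algebraMap C[X] (RatFunc C) (P m)) + algebraMap C[X] (RatFunc C) (P m - L) := by
    rw [map_sub]; ring
  rw [e]
  have h5 : w (algebraMap C[X] (RatFunc C) (P m - L)) ≤ (A2 * q ^ m / (1 - q)) * T := by
    refine w_poly_le hw ((Polynomial.natDegree_sub_le _ _).trans (max_le (hd m) hLd)) fun i => ?_
    rw [Polynomial.coeff_sub, hLc, ← dist_eq_norm]
    exact h4 i m
  have h6 := hA3 m
  refine (w.add_le _ _).trans ?_
  rw [add_mul]
  refine add_le_add h6 (h5.trans (le_of_eq ?_))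
  ring

end

section

variable {C : Type u} [NontriviallyNormedField C] [IsUltrametricDist C] [CompleteSpace C]
  [IsAlgClosed C] [CharZero C]
variable {K : Type v} [Field K] [Algebra C K] [Algebra (RatFunc C) K]
  [IsScalarTower C (RatFunc C) K] [FiniteDimensional (RatFunc C) K]

/-- the restriction of a norm of `K` to `C(t)` -/
theorem nmR_comp {w : AbsoluteValue K ℝ} (hw : IsNm C w) :
    NmR (w.comp (algebraMap (RatFunc C) K).injective) := by
  refine ⟨fun x y => ?_, fun c => ?_⟩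
  · change w (algebraMap (RatFunc C) K (x + y)) ≤ _
    rw [map_add]
    exact hw.na _ _
  · change w (algebraMap (RatFunc C) K (RatFunc.C c)) = _
    rw [← hw.const c, IsScalarTower.algebraMap_apply C (RatFunc C) K]
    rfl

/-- **Dual basis.** -/
theorem exists_lim_of_basis {ι : Type*} [Fintype ι] [DecidableEq ι] (b : Module.Basis ι (RatFunc C) K)
    {q : ℝ} {θ : ℕ → K}
    (h : ∀ i, PolyLim q fun m => Algebra.trace (RatFunc C) K (b i * θ m)) :
    ∃ θ₀ : K, ∀ w : AbsoluteValue K ℝ, IsNm C w → ∃ A : ℝ, ∀ m, w (θ m - θ₀) ≤ A * q ^ m := by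
  have : CharZero (RatFunc C) :=
    charZero_of_injective_algebraMap (algebraMap C (RatFunc C)).injective
  choose L hL using h
  let b' := (Algebra.traceForm (RatFunc C) K).dualBasis (traceForm_nondegenerate (RatFunc C) K) b
  have hexp : ∀ y : K, y = ∑ i, Algebra.trace (RatFunc C) K (b i * y) • b' i := by
    intro y
    conv_lhs => rw [← b'.sum_repr y]
    refine Finset.sum_congr rfl fun i _ => ?_
    rw [LinearMap.BilinForm.dualBasis_repr_apply, Algebra.traceForm_apply, mul_comm y]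
  refine ⟨∑ i, algebraMap C[X] (RatFunc C) (L i) • b' i, fun w hw => ?_⟩
  choose A hA0 hA using fun i => hL i _ (nmR_comp hw)
  refine ⟨∑ i, A i * w (b' i), fun m => ?_⟩
  have e : θ m - ∑ i, algebraMap C[X] (RatFunc C) (L i) • b' i =
      ∑ i, (Algebra.trace (RatFunc C) K (b i * θ m) - algebraMap C[X] (RatFunc C) (L i)) • b' i := by
    conv_lhs => rw [hexp (θ m)]
    rw [← Finset.sum_sub_distrib]
    exact Finset.sum_congr rfl fun i _ => (sub_smul _ _ _).symm
  rw [e, Finset.sum_mul]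
  refine (w.sum_le _ _).trans (Finset.sum_le_sum fun i _ => ?_)
  rw [Algebra.smul_def, map_mul, mul_right_comm]
  exact mul_le_mul_of_nonneg_right (hA i m) (w.nonneg _)

/-- (T1), the trace formula, for the derivation `D` and the element `b`. -/
def TrForm [CFF C K] (D : Derivation C K K) (b : K) : Prop :=
  ∃ (M : ℝ) (d : ℕ), ∀ (n : ℕ) (f : K), f ≠ 0 → (∀ P : Plk C K, (n : ℤ) ∣ ord P f) →
    ∃ (Q : C[X]) (S : Finset C) (r : C → C), Q.natDegree ≤ d ∧
      (∀ a ∈ S, ‖r a‖ ≤ M * max 1 ‖a‖ ^ d) ∧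
      Algebra.trace (RatFunc C) K (b * (D f / f)) = algebraMap C[X] (RatFunc C) Q +
        ∑ a ∈ S, (n : RatFunc C) * RatFunc.C (r a) / (RatFunc.X - RatFunc.C a)

theorem polyForm_of_trForm [CFF C K] {D : Derivation C K K} {b : K} (h : TrForm D b) {p : ℕ}
    {f : ℕ → K} (hf : IsSys C p f) :
    PolyForm ‖(p : C)‖ fun m => Algebra.trace (RatFunc C) K (b * (D (f m) / f m)) := by
  obtain ⟨M, d, hT⟩ := h
  have h1 : ∀ m, ∃ (Q : C[X]) (S : Finset C) (r : C → C), Q.natDegree ≤ d ∧
      (∀ a ∈ S, ‖r a‖ ≤ M * max 1 ‖a‖ ^ d) ∧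
      Algebra.trace (RatFunc C) K (b * (D (f m) / f m)) = algebraMap C[X] (RatFunc C) Q +
        ∑ a ∈ S, ((p ^ m : ℕ) : RatFunc C) * RatFunc.C (r a) / (RatFunc.X - RatFunc.C a) :=
    fun m => hT (p ^ m) (f m) (hf.ne m) ((divBy_iff (hf.ne m)).1 (hf.div m))
  choose Q S r hQ hr he using h1
  refine ⟨d, fun m => Q m + Polynomial.C ((p ^ m : ℕ) : C) * pp d (S m) (r m), fun m => ?_,
    fun w hw => ?_⟩
  · refine (Polynomial.natDegree_add_le _ _).trans (max_le (hQ m) ?_)
    exact (Polynomial.natDegree_C_mul_le _ _).trans (natDegree_pp _ _ _)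
  · obtain ⟨A, hA0, hA⟩ := exists_polar_bound w hw.1 hw.2 M d
    refine ⟨A, hA0, fun m => ?_⟩
    have e : Algebra.trace (RatFunc C) K (b * (D (f m) / f m)) - algebraMap C[X] (RatFunc C)
        (Q m + Polynomial.C ((p ^ m : ℕ) : C) * pp d (S m) (r m)) =
        RatFunc.C ((p ^ m : ℕ) : C) * (∑ a ∈ S m, RatFunc.C (r m a) /
          (RatFunc.X - RatFunc.C a) - algebraMap C[X] (RatFunc C) (pp d (S m) (r m))) := by
      rw [he m, map_add, map_mul, RatFunc.algebraMap_C, mul_sub, Finset.mul_sum]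
      have e2 : ∀ a, ((p ^ m : ℕ) : RatFunc C) * RatFunc.C (r m a) / (RatFunc.X - RatFunc.C a) =
          RatFunc.C ((p ^ m : ℕ) : C) * (RatFunc.C (r m a) / (RatFunc.X - RatFunc.C a)) := by
        intro a
        rw [mul_div_assoc, map_natCast]
      rw [Finset.sum_congr rfl fun a _ => e2 a]
      ring
    rw [e, map_mul, hw.2, mul_comm]
    refine mul_le_mul (hA _ _ (hr m)) (le_of_eq ?_) (norm_nonneg _) hA0
    rw [Nat.cast_pow, norm_pow]

/-- the logarithmic derivative of the next member of a system -/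
theorem logDer_succ (D : Derivation C K K) {f g h : K} (n : ℕ) (hn : n ≠ 0) (hg : g ≠ 0)
    (he : g = f * h ^ n) : h ≠ 0 ∧ D g / g = D f / f + (n : K) * (D h / h) := by
  have hf : f ≠ 0 := by
    rintro rfl
    rw [zero_mul] at he
    exact hg he
  have hh : h ≠ 0 := by
    rintro rfl
    rw [zero_pow hn, mul_zero] at he
    exact hg he
  refine ⟨hh, ?_⟩
  rw [he, Derivation.leibniz, Derivation.leibniz_pow]
  obtain ⟨k, rfl⟩ : ∃ k, n = k + 1 := ⟨n - 1, by omega⟩
  simp only [smul_eq_mul, nsmul_eq_mul, Nat.add_sub_cancel]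
  field_simp
  ring

/-- **(6.1)** from the trace formula, for one derivation. -/
theorem exists_isTheta_of_trForm [CFF C K] {p : ℕ} (hp0 : p ≠ 0) (h1 : ‖(p : C)‖ < 1)
    {D : Derivation C K K} (hT : ∀ b : K,
      ((algebraMap (RatFunc C) K).comp (algebraMap C[X] (RatFunc C))).IsIntegralElem b →
      TrForm D b) {f : ℕ → K} (hf : IsSys C p f) :
    ∃ θ : K, IsTheta p D f θ := by
  classical
  let _ : Algebra C[X] K := ((algebraMap (RatFunc C) K).comp (algebraMap C[X] (RatFunc C))).toAlgebra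
  have _ : IsScalarTower C[X] (RatFunc C) K := IsScalarTower.of_algebraMap_eq fun _ => rfl
  obtain ⟨s, b, hb⟩ := FiniteDimensional.exists_is_basis_integral C[X] (RatFunc C) K
  refine exists_lim_of_basis b (q := ‖(p : C)‖) (θ := fun m => D (f m) / f m) fun i => ?_
  have h2 := polyForm_of_trForm (hT (b i) (hb i)) hf
  obtain ⟨A, hA0, hA⟩ := exists_trace_bound D (b i)
  refine h2.lim (norm_nonneg _) h1 (A := A) fun m => ?_
  obtain ⟨h, hh⟩ := hf.succ m
  obtain ⟨hh0, h3⟩ := logDer_succ D (p ^ m) (pow_ne_zero _ hp0) (hf.ne (m + 1)) hh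
  have e : Algebra.trace (RatFunc C) K (b i * (D (f (m + 1)) / f (m + 1))) -
      Algebra.trace (RatFunc C) K (b i * (D (f m) / f m)) =
      RatFunc.C ((p : C) ^ m) * Algebra.trace (RatFunc C) K (b i * (D h / h)) := by
    rw [← map_sub, ← mul_sub, h3, add_sub_cancel_left, ← smul_eq_mul (RatFunc.C _), ← map_smul]
    congr 1
    rw [Algebra.smul_def]
    have e2 : algebraMap (RatFunc C) K (RatFunc.C ((p : C) ^ m)) = ((p ^ m : ℕ) : K) := by
      rw [map_pow, map_natCast, map_pow, map_natCast, Nat.cast_pow]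
    rw [e2]
    ring
  rw [e, map_mul, nmR_gauss.2, norm_pow, mul_comm]
  exact mul_le_mul_of_nonneg_right (hA h hh0) (pow_nonneg (norm_nonneg _) _)

end

/-- **(6.1)** for all derivations, from the trace formula. -/
theorem exists_isTheta_of {C K : Type u} [NontriviallyNormedField C] [IsUltrametricDist C]
    [CompleteSpace C] [IsAlgClosed C] [CharZero C] [Field K] [Algebra C K] [CFF C K]
    (hT : ∀ [Algebra (RatFunc C) K] [IsScalarTower C (RatFunc C) K]
      [FiniteDimensional (RatFunc C) K] (D : Derivation C K K),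
      D (algebraMap (RatFunc C) K RatFunc.X) = 1 → ∀ b : K,
      ((algebraMap (RatFunc C) K).comp (algebraMap C[X] (RatFunc C))).IsIntegralElem b →
      TrForm D b) {p : ℕ} (hp : p ≠ 0) (h1 : ‖(p : C)‖ < 1) (D : Derivation C K K) {f : ℕ → K}
    (hf : IsSys C p f) : ∃ θ : K, IsTheta p D f θ := by
  have hK : IsFF C K := isFF_of_cff
  obtain ⟨a, t, hfd⟩ := exists_rat hK
  have : CharZero (RatFunc C) :=
    charZero_of_injective_algebraMap (algebraMap C (RatFunc C)).injective
  obtain ⟨D₀, hD₀⟩ := exists_ext_der (E := K) (P025H373.rd C)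
  have hX : D₀ (algebraMap (RatFunc C) K RatFunc.X) = 1 := by
    rw [hD₀, ← RatFunc.algebraMap_X, P025H373.rd_poly, Polynomial.derivative_X, map_one, map_one]
  have h0 : D₀ ≠ 0 := by
    rintro rfl
    rw [Derivation.zero_apply] at hX
    exact zero_ne_one hX
  obtain ⟨x, rfl⟩ := exists_smul_eq hK h0 D
  obtain ⟨θ, hθ⟩ := exists_isTheta_of_trForm hp h1 (hT D₀ hX) hf
  refine ⟨x * θ, fun w hw => ?_⟩
  obtain ⟨A, hA⟩ := hθ w hw
  refine ⟨w x * A, fun m => ?_⟩
  have e : (x • D₀) (f m) / f m - x * θ = x * (D₀ (f m) / f m - θ) := by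
    rw [Derivation.smul_apply, smul_eq_mul]
    ring
  rw [e, map_mul, mul_assoc]
  exact mul_le_mul_of_nonneg_left (hA m) (w.nonneg _)

end P025H219
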