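import Vale.Agent.P025.R2.H492.HTr
import Vale.Agent.P025.R2.H219.HT3

/-!
# P025 G-HT (6.1): existence of the Hodge-Tate forms (helper219)
-/

universe u

namespace P025H219

open P025H373 P025H587 P025H941 Vale.Agent.P019P Polynomial

variable {C K : Type u} [NontriviallyNormedField C] [IsUltrametricDist C] [CompleteSpace C]
  [IsAlgClosed C] [CharZero C] [Field K] [Algebra C K]

/-- **(6.1)**: every `p`-system has a logarithmic differential, for every derivation. -/
theorem exists_isTheta [CFF C K] {p : ℕ} (hp : p ≠ 0) (h1 : ‖(p : C)‖ < 1)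
    (D : Derivation C K K) {f : ℕ → K} (hf : IsSys C p f) : ∃ θ : K, IsTheta p D f θ :=
  exists_isTheta_of (fun _ hD _ hb => P025H492.trace_formula hD hb) hp h1 D hf

/-- **(6.1)** in the form `HasTheta` of helper941. -/
theorem hasTheta [CFF C K] {p : ℕ} (hp : p ≠ 0) (h1 : ‖(p : C)‖ < 1) : HasTheta C p K :=
  fun D _ hf => exists_isTheta hp h1 D hf

/-- **(6.1)** in the form of `H587/Spec`. -/
theorem exists_isTheta_isFF (hK : IsFF C K) {p : ℕ} (hp : p.Prime) (h1 : ‖(p : C)‖ < 1)
    (D : Derivation C K K) {f : ℕ → K} (hf : IsSys C p f) : ∃ θ : K, IsTheta p D f θ :=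
  have : CFF C K := { ac := ‹_›, ex := hK }
  exists_isTheta hp.ne_zero h1 D hf

end P025H219
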